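import Vale.Agent.N259.DefsL
import Mathlib.CategoryTheory.Localization.Construction

/-!
Weak homotopy equivalences, localizations, induced functors, restriction of `∞`-groupoids along a
morphism of coherators.
-/

open CategoryTheory

namespace Vale.Agent.N259

open Vale.Agent.P259Z

/-- The cube `I^n`. -/
def Cb (n : ℕ) : Type := Fin n → unitInterval

instance instCb (n : ℕ) : TopologicalSpace (Cb n) := Pi.topologicalSpace

section

variable {X Y : Type} [TopologicalSpace X] [TopologicalSpace Y] (f : C(X, Y)) (n : ℕ) (x : X)

/-- The maps `I^n → X` which send the boundary to `x`. -/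
def loops : Set C(Cb n, X) := GenLoop (Fin n) X x

lemma post_mem (p : loops n x) : f.comp p.1 ∈ loops n (f x) := fun y hy => congrArg f (p.2 y hy)

/-- The map `p ↦ f ∘ p` on loops. -/
def post (p : loops n x) : loops n (f x) := ⟨f.comp p.1, post_mem f n x p⟩

lemma post_rel ⦃p q : loops n x⦄ (h : GenLoop.Homotopic p q) :
    GenLoop.Homotopic (post f n x p) (post f n x q) := h.comp_continuousMap f

/-- The map induced on the `n`-th homotopy groups. -/
def piMap : HomotopyGroup (Fin n) X x → HomotopyGroup (Fin n) Y (f x) :=
  Quot.map (ra := GenLoop.Homotopic) (rb := GenLoop.Homotopic) (post f n x) (post_rel f n x)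

/-- Bijective on path components and on all homotopy groups `π_{n+1}(X, x)`. -/
def WHE : Prop := Function.Bijective (zerothMap f) ∧
  ∀ (n : ℕ) (x : X), Function.Bijective (piMap f (n + 1) x)

end

/-- Weak homotopy equivalences. -/
def wTop : MorphismProperty Top := fun _ _ f => WHE f.hom.hom

/-- `Ho(Top)`: the localization of `Top` at the weak homotopy equivalences. -/
def HoTop : Type 1 := wTop.Localization

noncomputable instance instHoTop : Category.{1} HoTop :=
  MorphismProperty.instCategoryLocalization wTop

variable {A B : Coherator}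

/-- The localization of the `∞`-groupoids at the weak equivalences. -/
def Ho (O : A.Ops) : Type 1 := (Coherator.weq O).Localization

noncomputable instance instHo (O : A.Ops) : Category.{1} (Ho O) :=
  MorphismProperty.instCategoryLocalization (Coherator.weq O)

/-- `G` is the functor induced by `F` between the localizations. -/
def Induces {K L : Type 1} [Category.{0} K] [Category.{0} L] (W : MorphismProperty K)
    (V : MorphismProperty L) (F : K ⥤ L) (G : W.Localization ⥤ V.Localization) : Prop :=
  W.Q ⋙ G = F ⋙ V.Q

/-- Precomposition with `F`. -/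
def pre {K L : Type} [Category.{0} K] [Category.{0} L] (F : K ⥤ L) : (L ⥤ Type) ⥤ K ⥤ Type :=
  (Functor.whiskeringLeft K L Type).obj F

/-- The functor `X ↦ X ∘ T` to presheaves. -/
def preT (T : GHom A.toGlobExt B.toGlobExt) : B.Gpd ⥤ A.Psh := B.IsGpd.ι ⋙ pre T.val.op

lemma isGpd_preT (T : GHom A.toGlobExt B.toGlobExt) (X : B.Gpd) : A.IsGpd ((preT T).obj X) :=
  isGpd_pre' T X

/-- The restriction `T^* : X ↦ X ∘ T` of `∞`-groupoids along a morphism of coherators `T`. -/
noncomputable def restrict (T : GHom A.toGlobExt B.toGlobExt) : B.Gpd ⥤ A.Gpd :=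
  A.IsGpd.lift (preT T) (isGpd_preT T)

end Vale.Agent.N259
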