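import Vale.Agent.N259.Kl
import Vale.Agent.N259.Defs

/-!
The comparison functors do not depend on the choices.
-/

open CategoryTheory Limits Opposite CompactlyGenerated

namespace Vale.Agent.N259

open Vale.Agent.P259Z Br Coherator

/-- Transport of a natural transformation along an equivalence. -/
noncomputable def back {T 𝒜 ℬ : Type*} [Category* T] [Category* 𝒜] [Category* ℬ] (E : 𝒜 ⥤ ℬ)
    [E.IsEquivalence] {P : T ⥤ ℬ} {F : T ⥤ 𝒜} (a : P ⟶ F ⋙ E) : P ⋙ E.inv ⟶ F where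
  app Y := E.preimage (E.asEquivalence.counitIso.hom.app (P.obj Y) ≫ a.app Y)
  naturality X Y f := E.map_injective (by
    rw [E.map_comp, E.map_comp, E.map_preimage, E.map_preimage]
    exact (((Category.assoc _ _ _).symm.trans (congrArg (· ≫ a.app Y)
      (E.asEquivalence.counitIso.hom.naturality (P.map f)))).trans
      ((Category.assoc _ _ _).trans (congrArg (_ ≫ ·) (a.naturality f)))).trans
      (Category.assoc _ _ _).symm)

variable {A B : Coherator}

theorem zigzag (O : A.Ops) (D D' : DiscFunctor A) :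
    ∃ (P : Top ⥤ A.Gpd) (a : P ⟶ D.Pi) (b : P ⟶ D'.Pi),
      ∀ Y, weq O (a.app Y) ∧ weq O (b.app Y) := by
  have hC := isCoherator_ge A.coh
  obtain ⟨K0⟩ := P259.GlobExt.exists_cylFun_zero hC
  have hW : P259.GlobExt.weq (ident O) = (K0.pathCtx hC).W := by
    ext X Y f
    exact P259.GlobExt.weq_iff hC K0 _ f
  obtain ⟨P, a, b, h⟩ := exists_zigzag hC (ident O) (toDisc D) (toDisc D')
  have key : ∀ (Δ : DiscFunctor A) (c : P ⟶ (toDisc Δ).Pi),
      (∀ Y, P259.GlobExt.weq (ident O) (c.app Y)) → ∀ Y, weq O ((back (EG A)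
        (Functor.whiskerLeft compactlyGeneratedToTop c ≫ (piIso Δ).inv)).app Y) := by
    intro Δ c hc Y
    rw [weq_eq, hW]
    rw [hW] at hc
    change (K0.pathCtx hC).W ((EG A).map ((EG A).preimage _))
    rw [Functor.map_preimage]
    exact P259.PathCtx.W_comp _ (P259.PathCtx.trivFib_le_W _ _ (MorphismProperty.of_isIso _
      ((EG A).asEquivalence.counitIso.app ((compactlyGeneratedToTop ⋙ P).obj Y)).hom))
      (P259.PathCtx.W_comp _ (hc _) (P259.PathCtx.trivFib_le_W _ _ (MorphismProperty.of_isIso _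
      ((piIso Δ).app Y).inv)))
  exact ⟨_, _, _, fun Y => ⟨key D a (fun Y => (h Y).1) Y, key D' b (fun Y => (h Y).2) Y⟩⟩

theorem iso_Pi (O : A.Ops) (D D' : DiscFunctor A) :
    Nonempty (D.Pi ⋙ (weq O).Q ≅ D'.Pi ⋙ (weq O).Q) := by
  obtain ⟨P, a, b, h⟩ := zigzag O D D'
  have ha : ∀ Y, IsIso ((Functor.whiskerRight a (weq O).Q).app Y) := fun Y =>
    (weq O).Q_inverts _ (h Y).1
  have hb : ∀ Y, IsIso ((Functor.whiskerRight b (weq O).Q).app Y) := fun Y =>
    (weq O).Q_inverts _ (h Y).2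
  have := NatIso.isIso_of_isIso_app (Functor.whiskerRight a (weq O).Q)
  have := NatIso.isIso_of_isIso_app (Functor.whiskerRight b (weq O).Q)
  exact ⟨(asIso (Functor.whiskerRight a (weq O).Q)).symm ≪≫
    asIso (Functor.whiskerRight b (weq O).Q)⟩

/-- Functors out of a localization with isomorphic restrictions are isomorphic. -/
theorem iso_of_fac {𝒜 ℬ : Type*} [Category* 𝒜] [Category* ℬ] (W : MorphismProperty 𝒜)
    {G G' : W.Localization ⥤ ℬ} (e : W.Q ⋙ G ≅ W.Q ⋙ G') : Nonempty (G ≅ G') :=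
  ⟨Localization.liftNatIso W.Q W (W.Q ⋙ G) (W.Q ⋙ G') G G' e⟩

theorem nonempty_hom (A B : Coherator) : Nonempty (GHom A.toGlobExt B.toGlobExt) := by
  have hB := isCoherator_ge B.coh
  obtain ⟨s, -⟩ := (isCoherator_ge A.coh).tower.some.exists_section
    (P259.GlobExt.prodExtFst (ge A.toGlobExt) (ge B.toGlobExt).J (ge B.toGlobExt).isPushout) (by
      intro n S _ u v huv w hw
      have hp : (ge B.toGlobExt).Parallel u.2 v.2 := by
        cases n with
        | zero => trivial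
        | succ n => exact ⟨congrArg Prod.snd huv.1, congrArg Prod.snd huv.2⟩
      obtain ⟨g, hg1, hg2⟩ := hB.lifts u.2 v.2 hp
      exact ⟨(w, g), ⟨Prod.ext hw.1 hg1, Prod.ext hw.2 hg2⟩, rfl⟩)
  obtain ⟨F, -⟩ := toMap_surj (A := A.toGlobExt) (B := B.toGlobExt)
    ⟨fun f => (s.map f).2, fun S => congrArg Prod.snd (s.map_id S),
      fun f g => congrArg Prod.snd (s.map_comp f g), fun f => congrArg Prod.snd (s.map_incl f)⟩
  exact ⟨F⟩

theorem exists_comap (T : GHom A.toGlobExt B.toGlobExt) (D : DiscFunctor B) :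
    ∃ D₀ : DiscFunctor A, D₀.Pi = D.Pi ⋙ restrict T := by
  obtain ⟨⟨C', J', _, _⟩, _⟩ := B
  obtain ⟨F, hF⟩ := T
  change A.C ⥤ C' at F
  obtain rfl : A.J ⋙ F = J' := hF
  exact ⟨⟨F ⋙ D.D, D.sums, D.discs⟩, rfl⟩

theorem weq_restrict (T : GHom A.toGlobExt B.toGlobExt) (O : A.Ops) (O' : B.Ops) :
    weq O' = (weq O).inverseImage (restrict T) := by
  obtain ⟨⟨C', J', h1, h2⟩, h3⟩ := B
  obtain ⟨F, hF⟩ := T
  change A.C ⥤ C' at F
  obtain rfl : A.J ⋙ F = J' := hF
  let B : Coherator := ⟨⟨C', A.J ⋙ F, h1, h2⟩, h3⟩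
  let T : GHom A.toGlobExt B.toGlobExt := ⟨F, rfl⟩
  have hl : ∀ {S : Θ₀} {n : ℕ} {f g : A.H (Θ₀.disc n) S} {h : A.H (Θ₀.disc (n + 1)) S},
      A.IsLift f g h → B.IsLift (S := S) (F.map f) (F.map g) (F.map h) := fun hh =>
    ⟨(F.map_comp _ _).symm.trans (congrArg F.map hh.1),
      (F.map_comp _ _).symm.trans (congrArg F.map hh.2)⟩
  let O₁ : B.Ops := ⟨fun n => F.map (O.κ n), fun n => hl (O.κ_lift n), fun n => F.map (O.μ n),
    fun n => by
      have h := hl (O.μ_lift n)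
      rwa [F.map_comp, F.map_comp] at h⟩
  rw [weq_indep O' O₁]
  ext X Y f
  refine and_congr Iff.rfl (forall_congr' fun x => forall_congr' fun n => ?_)
  let e : ∀ {Z : B.Gpd} (z : Cell Z 0), Loop O₁ z n ≃ Loop O (X := (restrict T).obj Z) z n :=
    fun z => ⟨fun u => ⟨u.1, u.2, u.3⟩, fun u => ⟨u.1, u.2, u.3⟩, fun _ => rfl, fun _ => rfl⟩
  exact bij_iff (r := fun u v : Loop O₁ x n => Rel u.1 v.1)
    (s := fun u v : Loop O₁ (mapEl f x) n => Rel u.1 v.1) (Loop.map O₁ f)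
    (Loop.map O ((restrict T).map f)) (fun _ _ h => Rel.map f h)
    (fun _ _ h => Rel.map ((restrict T).map f) h) (e x) (e (mapEl f x)) (fun _ _ => Iff.rfl)
    (fun _ _ => Iff.rfl) fun _ => rfl

theorem exists_G (O : A.Ops) (D : DiscFunctor A) :
    ∃ G : whe.Localization ⥤ (weq O).Localization,
      whe.Q ⋙ G = D.Pi ⋙ (weq O).Q ∧ G.IsEquivalence :=
  ⟨Localization.Construction.lift _ (isLocalization O D).2.inverts,
    Localization.Construction.fac _ _, (isLocalization O D).2.isEquivalence⟩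

theorem exists_R (T : GHom A.toGlobExt B.toGlobExt) (O : A.Ops) (O' : B.Ops) :
    ∃ R : (weq O').Localization ⥤ (weq O).Localization,
      (weq O').Q ⋙ R = restrict T ⋙ (weq O).Q :=
  ⟨Localization.Construction.lift _ fun _ _ f hf =>
    (weq O).Q_inverts _ ((weq_restrict T O O').le f hf), Localization.Construction.fac _ _⟩

theorem triangle {O : A.Ops} {O' : B.Ops} {T : GHom A.toGlobExt B.toGlobExt} {D : DiscFunctor A}
    {D' : DiscFunctor B} {G : whe.Localization ⥤ (weq O).Localization}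
    {G' : whe.Localization ⥤ (weq O').Localization}
    {R : (weq O').Localization ⥤ (weq O).Localization} (hG : whe.Q ⋙ G = D.Pi ⋙ (weq O).Q)
    (hG' : whe.Q ⋙ G' = D'.Pi ⋙ (weq O').Q) (hR : (weq O').Q ⋙ R = restrict T ⋙ (weq O).Q) :
    Nonempty (G' ⋙ R ≅ G) := by
  obtain ⟨D₀, h⟩ := exists_comap T D'
  obtain ⟨e⟩ := iso_Pi O D₀ D
  have h1 : whe.Q ⋙ G' ⋙ R = D₀.Pi ⋙ (weq O).Q := by
    rw [← Functor.assoc, hG', Functor.assoc, hR, h, Functor.assoc]
  exact iso_of_fac whe (eqToIso h1 ≪≫ e ≪≫ eqToIso hG.symm)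

theorem isEquivalence_R {O : A.Ops} {O' : B.Ops} {T : GHom A.toGlobExt B.toGlobExt}
    {R : (weq O').Localization ⥤ (weq O).Localization}
    (hR : (weq O').Q ⋙ R = restrict T ⋙ (weq O).Q) : R.IsEquivalence := by
  obtain ⟨D⟩ := nonempty_disc A
  obtain ⟨D'⟩ := nonempty_disc B
  obtain ⟨G, hG, _⟩ := exists_G O D
  obtain ⟨G', hG', _⟩ := exists_G O' D'
  obtain ⟨e⟩ := triangle hG hG' hR
  have := Functor.isEquivalence_of_iso e.symm
  exact Functor.isEquivalence_of_comp_left G' R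

theorem iso_R {O : A.Ops} {O' : B.Ops} {T T' : GHom A.toGlobExt B.toGlobExt}
    {R R' : (weq O').Localization ⥤ (weq O).Localization}
    (hR : (weq O').Q ⋙ R = restrict T ⋙ (weq O).Q)
    (hR' : (weq O').Q ⋙ R' = restrict T' ⋙ (weq O).Q) : Nonempty (R ≅ R') := by
  obtain ⟨D⟩ := nonempty_disc A
  obtain ⟨D'⟩ := nonempty_disc B
  obtain ⟨G, hG, _⟩ := exists_G O D
  obtain ⟨G', hG', _⟩ := exists_G O' D'
  obtain ⟨e⟩ := triangle hG hG' hR
  obtain ⟨e'⟩ := triangle hG hG' hR'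
  exact ⟨((Functor.whiskeringLeft _ _ _).obj G').preimageIso (e ≪≫ e'.symm)⟩

end Vale.Agent.N259
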