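import Vale.Agent.P259Z.Main

/-!
Extension of maps over the cylinder of a ball.
-/

open scoped unitInterval

namespace Vale.Agent.N259

open Vale.Agent.P259

variable {n : ℕ} {Y : Type*} [TopologicalSpace Y]

lemma norm_le_one (x : Ball n) : ‖x.1‖ ≤ 1 := mem_closedBall_zero_iff.1 x.2

lemma norm_eq_one {x : EuclideanSpace ℝ (Fin n)} (h : ‖x‖ ^ 2 = 1) : ‖x‖ = 1 :=
  (pow_eq_one_iff_of_nonneg (norm_nonneg _) two_ne_zero).1 h

/-- Two homotopies which agree on the boundary, glued on the sphere. -/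
lemma exists_sphere (U V : C(Ball n × I, Y))
    (h : ∀ (x : Ball n) (t : I), ‖x.1‖ ^ 2 = 1 → U (x, t) = V (x, t)) :
    ∃ β : C(Metric.sphere (0 : EuclideanSpace ℝ (Fin (n + 1))) 1 × I, Y),
      (∀ x t, β (radial (hemi false n x).1, t) = U (x, t)) ∧
      ∀ x t, β (radial (hemi true n x).1, t) = V (x, t) := by
  have hc : Continuous (fun p : Metric.sphere (0 : EuclideanSpace ℝ (Fin (n + 1))) 1 × I =>
      if p.1.1 (Fin.last n) ≤ 0 then
        U (projB n ⟨p.1.1, Metric.sphere_subset_closedBall p.1.2⟩, p.2) else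
        V (projB n ⟨p.1.1, Metric.sphere_subset_closedBall p.1.2⟩, p.2)) := by
    refine Continuous.if_le ?_ ?_ ?_ continuous_const ?_
    · fun_prop
    · fun_prop
    · exact (continuous_apply (Fin.last n)).comp
        ((PiLp.continuous_ofLp 2 _).comp (continuous_subtype_val.comp continuous_fst))
    · intro p hx
      apply h
      change ‖initE p.1.1‖ ^ 2 = 1
      have h1 : ‖p.1.1‖ = 1 := mem_sphere_zero_iff_norm.1 p.1.2
      have h2 := norm_sq_succ p.1.1
      rw [hx, h1] at h2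
      linarith
  have key : ∀ (b : Bool) (x : Ball n), (hemi b n x).1 ∈
      Metric.sphere (0 : EuclideanSpace ℝ (Fin (n + 1))) 1 := fun b x =>
    mem_sphere_zero_iff_norm.2 (norm_eq_one (norm_hemi b x))
  refine ⟨⟨_, hc⟩, fun x t => ?_, fun x t => ?_⟩
  · rw [radial_of_norm ⟨(hemi false n x).1, key false x⟩]
    change (if (hemi false n x).1 (Fin.last n) ≤ 0 then U (projB n (hemi false n x), t)
      else V (projB n (hemi false n x), t)) = U (x, t)
    rw [projB_hemi, if_pos]
    change snocE x.1 (sgn false * Real.sqrt (1 - ‖x.1‖ ^ 2)) (Fin.last n) ≤ 0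
    rw [snocE_last]
    simp [sgn]
  · rw [radial_of_norm ⟨(hemi true n x).1, key true x⟩]
    change (if (hemi true n x).1 (Fin.last n) ≤ 0 then U (projB n (hemi true n x), t)
      else V (projB n (hemi true n x), t)) = V (x, t)
    rw [projB_hemi]
    split_ifs with h1
    · apply h
      change snocE x.1 (sgn true * Real.sqrt (1 - ‖x.1‖ ^ 2)) (Fin.last n) ≤ 0 at h1
      rw [snocE_last] at h1
      simp only [sgn, one_mul] at h1
      have h2 := (mem_ball_iff x.1).1 x.2
      have h3 : Real.sqrt (1 - ‖x.1‖ ^ 2) = 0 := le_antisymm h1 (Real.sqrt_nonneg _)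
      rw [Real.sqrt_eq_zero (by linarith)] at h3
      linarith
    · rfl

lemma max_pos (p : Ball n × I) : 0 < max ‖p.1.1‖ (1 - (p.2 : ℝ) / 2) :=
  lt_max_of_lt_right (by linarith [p.2.2.2])

/-- The map `(x, t) ↦ x / max(|x|, 1 - t/2)`. -/
noncomputable def push (n : ℕ) : C(Ball n × I, Ball n) where
  toFun p := ⟨(max ‖p.1.1‖ (1 - (p.2 : ℝ) / 2))⁻¹ • p.1.1, by
    rw [mem_closedBall_zero_iff, norm_smul, norm_inv, Real.norm_of_nonneg (max_pos p).le,
      inv_mul_le_iff₀ (max_pos p), mul_one]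
    exact le_max_left _ _⟩
  continuous_toFun := by
    refine Continuous.subtype_mk (Continuous.smul (Continuous.inv₀ ?_ fun p => (max_pos p).ne') ?_) _
    · fun_prop
    · fun_prop

/-- The homotopy extension property of the ball and its boundary. -/
theorem exists_hep (U V : C(Ball n × I, Y)) (A : C(Ball (n + 1), Y))
    (h : ∀ (x : Ball n) (t : I), ‖x.1‖ ^ 2 = 1 → U (x, t) = V (x, t))
    (hU : ∀ x, A (hemi false n x) = U (x, 0)) (hV : ∀ x, A (hemi true n x) = V (x, 0)) :
    ∃ H : C(Ball (n + 1) × I, Y), (∀ x t, H (hemi false n x, t) = U (x, t)) ∧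
      (∀ x t, H (hemi true n x, t) = V (x, t)) ∧ ∀ x, H (x, 0) = A x := by
  obtain ⟨β, hβ1, hβ2⟩ := exists_sphere U V h
  have hA : ∀ y : Ball (n + 1), ‖y.1‖ ^ 2 = 1 → A y = β (radial y.1, 0) := by
    intro y hy
    obtain ⟨b, hb⟩ := exists_hemi_eq y hy
    rw [← hb]
    cases b
    · rw [hU, hβ1]
    · rw [hV, hβ2]
  have hc : Continuous (fun p : Ball (n + 1) × I => if ‖p.1.1‖ ≤ 1 - (p.2 : ℝ) / 2 then
      A (push (n + 1) p) else
      β (radial p.1.1, Set.projIcc (0 : ℝ) 1 zero_le_one (2 * ‖p.1.1‖ - 2 + p.2))) := by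
    refine continuous_if_le (by fun_prop) (by fun_prop) (by fun_prop) ?_ ?_
    · refine β.continuous.comp_continuousOn (ContinuousOn.prodMk ?_
        (Continuous.continuousOn (continuous_projIcc.comp (by fun_prop))))
      refine ContinuousOn.comp (t := {x | x ≠ 0}) continuousOn_radial
        (continuous_subtype_val.comp continuous_fst).continuousOn ?_
      intro p hp
      have hp' : 1 - (p.2 : ℝ) / 2 ≤ ‖p.1.1‖ := hp
      have : 0 < ‖p.1.1‖ := by linarith [p.2.2.2]
      exact norm_pos_iff.1 this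
    · intro p hp
      have h0 : 0 < ‖p.1.1‖ := by linarith [p.2.2.2]
      have h1 : (push (n + 1) p).1 = (radial p.1.1).1 := by
        change (max ‖p.1.1‖ (1 - (p.2 : ℝ) / 2))⁻¹ • p.1.1 = _
        rw [← hp, max_self]
        unfold radial
        rw [dif_neg (norm_pos_iff.1 h0)]
      have h2 : Set.projIcc (0 : ℝ) 1 zero_le_one (2 * ‖p.1.1‖ - 2 + p.2) = 0 := by
        rw [hp, show 2 * (1 - (p.2 : ℝ) / 2) - 2 + p.2 = 0 by ring, Set.projIcc_left]
        rfl
      rw [h2, hA _ (by rw [h1, mem_sphere_zero_iff_norm.1 (radial p.1.1).2, one_pow]), h1,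
        radial_of_norm]
  have key : ∀ (y : Ball (n + 1)) (t : I), ‖y.1‖ ^ 2 = 1 →
      (⟨_, hc⟩ : C(Ball (n + 1) × I, Y)) (y, t) = β (radial y.1, t) := by
    intro y t hy
    have hy' := norm_eq_one hy
    change (if ‖y.1‖ ≤ 1 - (t : ℝ) / 2 then A (push (n + 1) (y, t)) else
      β (radial y.1, Set.projIcc (0 : ℝ) 1 zero_le_one (2 * ‖y.1‖ - 2 + t))) = _
    split_ifs with h1
    · have ht : t = 0 := Subtype.ext
        (show (t : ℝ) = 0 from le_antisymm (by rw [hy'] at h1; linarith) t.2.1)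
      have h2 : push (n + 1) (y, t) = y := by
        apply Subtype.ext
        change (max ‖y.1‖ (1 - (t : ℝ) / 2))⁻¹ • y.1 = _
        rw [ht, hy']
        simp
      rw [h2, ht, hA y hy]
    · rw [hy', show 2 * (1 : ℝ) - 2 + t = t by ring, Set.projIcc_val]
  refine ⟨⟨_, hc⟩, fun x t => (key _ t (norm_hemi false x)).trans (hβ1 x t),
    fun x t => (key _ t (norm_hemi true x)).trans (hβ2 x t), fun x => ?_⟩
  change (if ‖x.1‖ ≤ 1 - ((0 : I) : ℝ) / 2 then A (push (n + 1) (x, 0)) else _) = _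
  rw [if_pos (by simpa using norm_le_one x)]
  congr 1
  apply Subtype.ext
  change (max ‖x.1‖ (1 - ((0 : I) : ℝ) / 2))⁻¹ • x.1 = _
  rw [max_eq_right (by simpa using norm_le_one x)]
  simp

/-- The homotopy extension property, at the other end. -/
theorem exists_hep' (U V : C(Ball n × I, Y)) (A : C(Ball (n + 1), Y))
    (h : ∀ (x : Ball n) (t : I), ‖x.1‖ ^ 2 = 1 → U (x, t) = V (x, t))
    (hU : ∀ x, A (hemi false n x) = U (x, 1)) (hV : ∀ x, A (hemi true n x) = V (x, 1)) :
    ∃ H : C(Ball (n + 1) × I, Y), (∀ x t, H (hemi false n x, t) = U (x, t)) ∧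
      (∀ x t, H (hemi true n x, t) = V (x, t)) ∧ ∀ x, H (x, 1) = A x := by
  let r : ∀ m, C(Ball m × I, Ball m × I) := fun m => ⟨fun p => (p.1, σ p.2), by fun_prop⟩
  obtain ⟨H, h1, h2, h3⟩ := exists_hep (U.comp (r n)) (V.comp (r n)) A
    (fun x t hx => h x (σ t) hx)
    (fun x => (hU x).trans (congrArg (fun t => U (x, t)) unitInterval.symm_zero.symm))
    (fun x => (hV x).trans (congrArg (fun t => V (x, t)) unitInterval.symm_zero.symm))
  refine ⟨H.comp (r (n + 1)), fun x t => (h1 x (σ t)).trans ?_, fun x t => (h2 x (σ t)).trans ?_,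
    fun x => (congrArg (fun t => H (x, t)) unitInterval.symm_one).trans (h3 x)⟩
  · exact congrArg (fun t => U (x, t)) (unitInterval.symm_symm t)
  · exact congrArg (fun t => V (x, t)) (unitInterval.symm_symm t)

/-- The number `√(1 - |x|²)`. -/
noncomputable def rad (x : Ball n) : ℝ := Real.sqrt (1 - ‖x.1‖ ^ 2)

lemma rad_nonneg (x : Ball n) : 0 ≤ rad x := Real.sqrt_nonneg _

lemma rad_sq (x : Ball n) : rad x ^ 2 = 1 - ‖x.1‖ ^ 2 :=
  Real.sq_sqrt (by linarith [(mem_ball_iff x.1).1 x.2])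

lemma rad_le (x : Ball n) : rad x ≤ 1 :=
  Real.sqrt_le_one.2 (by nlinarith [norm_nonneg x.1])

@[fun_prop]
lemma continuous_rad : Continuous (rad (n := n)) := by
  unfold rad
  fun_prop

/-- The map `(x, t) ↦ (x, 4 max(0, t - 1 + r/2) - r)` with `r = √(1 - |x|²)`. -/
noncomputable def rise (n : ℕ) : C(Ball n × I, Ball (n + 1)) where
  toFun p := ⟨snocE p.1.1 (4 * max 0 ((p.2 : ℝ) - (1 - rad p.1 / 2)) - rad p.1), by
    have h1 := rad_sq p.1
    have h2 := rad_nonneg p.1
    have h3 : 0 ≤ max 0 ((p.2 : ℝ) - (1 - rad p.1 / 2)) := le_max_left _ _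
    have h4 : max 0 ((p.2 : ℝ) - (1 - rad p.1 / 2)) ≤ rad p.1 / 2 :=
      max_le (by linarith) (by linarith [p.2.2.2])
    rw [mem_ball_iff, norm_snocE_sq]
    nlinarith⟩
  continuous_toFun := by
    refine Continuous.subtype_mk (continuous_snocE
      (continuous_subtype_val.comp continuous_fst) ?_) _
    fun_prop

/-- A map from the boundary of the cylinder of a ball to a contractible space extends. -/
theorem exists_cyl [ContractibleSpace Y] (U V : C(Ball n × I, Y)) (A B : C(Ball (n + 1), Y))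
    (h : ∀ (x : Ball n) (t : I), ‖x.1‖ ^ 2 = 1 → U (x, t) = V (x, t))
    (hU : ∀ x, A (hemi false n x) = U (x, 0)) (hV : ∀ x, A (hemi true n x) = V (x, 0))
    (hU' : ∀ x, B (hemi false n x) = U (x, 1)) (hV' : ∀ x, B (hemi true n x) = V (x, 1)) :
    ∃ H : C(Ball (n + 1) × I, Y), (∀ x t, H (hemi false n x, t) = U (x, t)) ∧
      (∀ x t, H (hemi true n x, t) = V (x, t)) ∧ (∀ x, H (x, 0) = A x) ∧ ∀ x, H (x, 1) = B x := by
  obtain ⟨G, g1, g2, g3⟩ := exists_hep U V A h hU hV
  have hB : ∀ y : Ball (n + 1), ‖y.1‖ ^ 2 = 1 → G (y, 1) = B y := by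
    intro y hy
    obtain ⟨b, hb⟩ := exists_hemi_eq y hy
    rw [← hb]
    cases b
    · rw [hU', g1]
    · rw [hV', g2]
  obtain ⟨W, w1, w2⟩ := exists_filler (G.comp ⟨fun y => (y, 1), by fun_prop⟩) B hB
  have hpos : ∀ x : Ball (n + 1), 0 < 1 - rad x / 2 := fun x => by linarith [rad_le x]
  have hc : Continuous (fun p : Ball (n + 1) × I => if (p.2 : ℝ) ≤ 1 - rad p.1 / 2 then
      G (p.1, Set.projIcc (0 : ℝ) 1 zero_le_one (p.2 / (1 - rad p.1 / 2))) else
      W (rise (n + 1) p)) := by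
    refine Continuous.if_le ?_ (by fun_prop) (by fun_prop) (by fun_prop) ?_
    · refine G.continuous.comp (continuous_fst.prodMk (continuous_projIcc.comp ?_))
      exact Continuous.div (by fun_prop) (by fun_prop) fun p => (hpos p.1).ne'
    · intro p hp
      have h1 : rise (n + 1) p = hemi false (n + 1) p.1 := by
        apply Subtype.ext
        change snocE _ _ = snocE _ _
        rw [hp, sub_self, max_self]
        simp [sgn, rad]
      rw [h1, w1, hp, div_self (hpos p.1).ne', Set.projIcc_right]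
      rfl
  have key : ∀ (y : Ball (n + 1)) (t : I), ‖y.1‖ ^ 2 = 1 →
      (⟨_, hc⟩ : C(Ball (n + 1) × I, Y)) (y, t) = G (y, t) := by
    intro y t hy
    have h0 : rad y = 0 := by simp [rad, hy]
    change (if (t : ℝ) ≤ 1 - rad y / 2 then
      G (y, Set.projIcc (0 : ℝ) 1 zero_le_one (t / (1 - rad y / 2))) else _) = _
    rw [h0, if_pos (by simpa using t.2.2)]
    simp
  refine ⟨⟨_, hc⟩, fun x t => (key _ t (norm_hemi false x)).trans (g1 x t),
    fun x t => (key _ t (norm_hemi true x)).trans (g2 x t), fun x => ?_, fun x => ?_⟩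
  · change (if ((0 : I) : ℝ) ≤ 1 - rad x / 2 then
      G (x, Set.projIcc (0 : ℝ) 1 zero_le_one (((0 : I) : ℝ) / (1 - rad x / 2))) else _) = _
    rw [if_pos (by simpa using (hpos x).le), ← g3]
    simp
  · by_cases h1 : ((1 : I) : ℝ) ≤ 1 - rad x / 2
    · have h0 : rad x = 0 := le_antisymm (by simp at h1; linarith) (rad_nonneg x)
      have h2 : ‖x.1‖ ^ 2 = 1 := by
        have := rad_sq x
        rw [h0] at this
        linarith
      exact (key x 1 h2).trans (hB x h2)
    · change (if ((1 : I) : ℝ) ≤ 1 - rad x / 2 then _ else W (rise (n + 1) (x, 1))) = _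
      rw [if_neg h1, ← w2]
      congr 1
      apply Subtype.ext
      change snocE x.1 (4 * max 0 (((1 : I) : ℝ) - (1 - rad x / 2)) - rad x) =
        snocE x.1 (sgn true * rad x)
      rw [max_eq_right (by simp; linarith [rad_nonneg x])]
      congr 1
      simp only [sgn, Set.Icc.coe_one]
      ring

end Vale.Agent.N259
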