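import Vale.Agent.P259Z.Top

/-!
A lemma used by the definitions.
-/

open CategoryTheory Limits Opposite

namespace Vale.Agent.N259

open Vale.Agent.P259Z

lemma isGpd_pre' {A B : Coherator} (T : GHom A.toGlobExt B.toGlobExt) (X : B.Gpd) :
    A.IsGpd (T.val.op ⋙ X.psh) := by
  obtain ⟨⟨C', J', _, _⟩, _⟩ := B
  obtain ⟨F, hF⟩ := T
  change A.C ⥤ C' at F
  obtain rfl : A.J ⋙ F = J' := hF
  exact X.property

end Vale.Agent.N259
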