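import Vale.Agent.N259.Cyl

/-!
Any two disc functors of a coherator are joined by a path of functors; the zigzag of fundamental
`∞`-groupoid functors.
-/

open CategoryTheory Limits Opposite
open scoped unitInterval

namespace Vale.Agent.N259

open Vale.Agent.P259 Theta0 GlobExt

/-- Spaces, with homotopies as morphisms. -/
structure Kl : Type 1 where
  X : TopCat.{0}

instance : Category.{0} Kl where
  Hom A B := C(A.X × I, B.X)
  id _ := ⟨Prod.fst, continuous_fst⟩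
  comp f g := ⟨fun p => g (f p, p.2), by fun_prop⟩
  id_comp _ := rfl
  comp_id _ := rfl
  assoc _ _ _ := rfl

/-- The homotopy underlying a morphism. -/
def Kl.hty {A B : Kl} (f : A ⟶ B) : C(A.X × I, B.X) := f

/-- A homotopy as a morphism. -/
def Kl.mk' {A B : Kl} (f : C(A.X × I, B.X)) : A ⟶ B := f

lemma Kl.ext' {A B : Kl} {f g : A ⟶ B} (h : ∀ x t, Kl.hty f (x, t) = Kl.hty g (x, t)) : f = g :=
  ContinuousMap.ext fun p => h p.1 p.2

/-- Constant homotopies. -/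
def ι : TopCat.{0} ⥤ Kl where
  obj X := ⟨X⟩
  map f := Kl.mk' ⟨fun p => f.hom p.1, by fun_prop⟩
  map_id _ := rfl
  map_comp _ _ := rfl

/-- The value of a homotopy at time `t`. -/
def ev (t : I) : Kl ⥤ TopCat.{0} where
  obj A := A.X
  map f := TopCat.ofHom ⟨fun x => Kl.hty f (x, t), by fun_prop⟩
  map_id _ := rfl
  map_comp _ _ := rfl

lemma ev_ι (t : I) {X Y : TopCat.{0}} (f : X ⟶ Y) : (ev t).map (ι.map f) = f := rfl

/-- Homotopies are maps to path spaces. -/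
noncomputable def curryEquiv (X : TopCat.{0}) (B : Kl) :
    (ι.obj X ⟶ B) ≃ (X ⟶ TopCat.of C(I, B.X)) where
  toFun H := TopCat.ofHom (Kl.hty H).curry
  invFun g := Kl.mk' g.hom.uncurry
  left_inv _ := rfl
  right_inv _ := rfl

instance : ι.IsLeftAdjoint :=
  ⟨_, ⟨Adjunction.adjunctionOfEquivRight curryEquiv fun _ _ _ _ _ => rfl⟩⟩

lemma glue_ι {R : Theta0 ⥤ TopCat.{0}} (hR : PreservesGlue R) : PreservesGlue (R ⋙ ι) :=
  fun t j i hl hi => (hR t j i hl hi).map ι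

/-- The globular extension of the maps which satisfy a property. -/
noncomputable def subExt (E : GlobExt) (P : ∀ {S T : Theta0}, E.Hom S T → Prop)
    (hi : ∀ {S T : Theta0} (f : S ⟶ T), P (E.incl f))
    (hc : ∀ {S T U : Theta0} (f : E.Hom S T) (g : E.Hom T U), P f → P g → P (E.comp f g))
    (hg : ∀ {l : ℕ} (t : Tab l) (j i : ℕ) (hl : j < l) (hi : j < i) (U : Theta0)
      (c : E.Hom (Theta0.glue t j i hl hi) U), P (E.comp (E.incl (inl t j i hl hi)) c) →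
      P (E.comp (E.incl (inr t j i hl hi)) c) → P c) : GlobExt where
  Hom S T := {f : E.Hom S T // P f}
  id S := ⟨E.id S, E.incl_id S ▸ hi (𝟙 S)⟩
  comp f g := ⟨E.comp f.1 g.1, hc _ _ f.2 g.2⟩
  id_comp f := Subtype.ext (E.id_comp f.1)
  comp_id f := Subtype.ext (E.comp_id f.1)
  assoc f g h := Subtype.ext (E.assoc f.1 g.1 h.1)
  incl f := ⟨E.incl f, hi f⟩
  incl_id S := Subtype.ext (E.incl_id S)
  incl_comp f g := Subtype.ext (E.incl_comp f g)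
  glue t j i hl hi U a b h := by
    obtain ⟨c, ⟨h1, h2⟩, h3⟩ := E.glue t j i hl hi U a.1 b.1 (congrArg Subtype.val h)
    refine ⟨⟨c, hg t j i hl hi U c (h1 ▸ a.2) (h2 ▸ b.2)⟩, ⟨Subtype.ext h1, Subtype.ext h2⟩, ?_⟩
    rintro d ⟨d1, d2⟩
    exact Subtype.ext (h3 d.1 ⟨congrArg Subtype.val d1, congrArg Subtype.val d2⟩)

variable {C : GlobExt}

/-- Two disc functors agree on `Θ₀`, up to isomorphism. -/
theorem exists_theta (Δ Δ' : DiscFunctor C) :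
    Nonempty (C.J ⋙ Δ.D ≅ C.J ⋙ Δ'.D) := by
  obtain ⟨a, ha⟩ := exists_extend (C.J ⋙ Δ.D) (C.J ⋙ Δ'.D) Δ.glue (Δ.disc ≪≫ Δ'.disc.symm).hom
  obtain ⟨b, hb⟩ := exists_extend (C.J ⋙ Δ'.D) (C.J ⋙ Δ.D) Δ'.glue (Δ.disc ≪≫ Δ'.disc.symm).inv
  have ha' := fun n => NatTrans.congr_app ha (Globe.D n)
  have hb' := fun n => NatTrans.congr_app hb (Globe.D n)
  refine ⟨⟨a, b, ext_of_disc Δ.glue fun n => ?_, ext_of_disc Δ'.glue fun n => ?_⟩⟩
  · exact (congrArg₂ (· ≫ ·) (ha' n) (hb' n)).trans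
      ((Δ.disc ≪≫ Δ'.disc.symm).hom_inv_id_app (Globe.D n))
  · exact (congrArg₂ (· ≫ ·) (hb' n) (ha' n)).trans
      ((Δ.disc ≪≫ Δ'.disc.symm).inv_hom_id_app (Globe.D n))

/-- Parallel maps out of discs. -/
def Par (F : Theta0 ⥤ Kl) {Z : Kl} : {n : ℕ} → (u v : F.obj (disc n) ⟶ Z) → Prop
  | 0, _, _ => True
  | n + 1, u, v => F.map (Theta0.σ n) ≫ u = F.map (Theta0.σ n) ≫ v ∧
      F.map (τ n) ≫ u = F.map (τ n) ≫ v

section

variable (Δ : DiscFunctor C)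

/-- The restriction of a disc functor to `Θ₀`. -/
noncomputable abbrev R : Theta0 ⥤ TopCat.{0} := C.J ⋙ Δ.D

/-- The identification of the discs. -/
noncomputable def e (n : ℕ) : (R Δ).obj (disc n) ≅ ballData.obj n := Δ.discIso n

lemma e_σ (n : ℕ) : (R Δ).map (Theta0.σ n) ≫ (e Δ (n + 1)).hom = (e Δ n).hom ≫ ballData.s n := by
  have h := Δ.discIso_face false (Nat.lt_succ_self n)
  rw [ballData.face_succ] at h
  exact h

lemma e_τ (n : ℕ) : (R Δ).map (τ n) ≫ (e Δ (n + 1)).hom = (e Δ n).hom ≫ ballData.t n := by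
  have h := Δ.discIso_face true (Nat.lt_succ_self n)
  rw [ballData.face_succ] at h
  exact h

lemma s_e (n : ℕ) : ballData.s n ≫ (e Δ (n + 1)).inv = (e Δ n).inv ≫ (R Δ).map (Theta0.σ n) := by
  rw [Iso.comp_inv_eq, Category.assoc, e_σ, Iso.inv_hom_id_assoc]

lemma t_e (n : ℕ) : ballData.t n ≫ (e Δ (n + 1)).inv = (e Δ n).inv ≫ (R Δ).map (τ n) := by
  rw [Iso.comp_inv_eq, Category.assoc, e_τ, Iso.inv_hom_id_assoc]

lemma s_e' (n : ℕ) {Y : TopCat.{0}} (A : (R Δ).obj (disc (n + 1)) ⟶ Y) :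
    ballData.s n ≫ (e Δ (n + 1)).inv ≫ A = (e Δ n).inv ≫ (R Δ).map (Theta0.σ n) ≫ A := by
  rw [← Category.assoc, s_e, Category.assoc]

lemma t_e' (n : ℕ) {Y : TopCat.{0}} (A : (R Δ).obj (disc (n + 1)) ⟶ Y) :
    ballData.t n ≫ (e Δ (n + 1)).inv ≫ A = (e Δ n).inv ≫ (R Δ).map (τ n) ≫ A := by
  rw [← Category.assoc, t_e, Category.assoc]

variable {Δ} {n : ℕ} {Z : Kl}

/-- A homotopy on a disc, as a homotopy on the ball. -/
noncomputable def toB (u : (R Δ ⋙ ι).obj (disc n) ⟶ Z) : C(Ball n × I, Z.X) :=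
  Kl.hty (ι.map (e Δ n).inv ≫ u)

lemma toB_par {u v : (R Δ ⋙ ι).obj (disc n) ⟶ Z} (h : Par (R Δ ⋙ ι) u v) (x : Ball n) (t : I)
    (hx : ‖x.1‖ ^ 2 = 1) : toB u (x, t) = toB v (x, t) := by
  cases n with
  | zero =>
    exfalso
    have h0 : x.1 = 0 := Subsingleton.elim _ _
    rw [h0, norm_zero] at hx
    norm_num at hx
  | succ n =>
    refine eq_of_norm_sq_eq_one ((e Δ (n + 1)).inv ≫ (ev t).map u)
      ((e Δ (n + 1)).inv ≫ (ev t).map v) ?_ ?_ x hx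
    · exact (s_e' Δ n _).trans ((congrArg (fun w => (e Δ n).inv ≫ (ev t).map w) h.1).trans
        (s_e' Δ n ((ev t).map v)).symm)
    · exact (t_e' Δ n _).trans ((congrArg (fun w => (e Δ n).inv ≫ (ev t).map w) h.2).trans
        (t_e' Δ n ((ev t).map v)).symm)

lemma toB_s {u : (R Δ ⋙ ι).obj (disc n) ⟶ Z} {A : (R Δ).obj (disc (n + 1)) ⟶ Z.X} {t : I}
    (h : (R Δ).map (Theta0.σ n) ≫ A = (ev t).map u) (x : Ball n) :
    ((e Δ (n + 1)).inv ≫ A).hom (hemi false n x) = toB u (x, t) := by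
  have h1 : ballData.s n ≫ (e Δ (n + 1)).inv ≫ A = (e Δ n).inv ≫ (ev t).map u :=
    (s_e' Δ n A).trans (congrArg ((e Δ n).inv ≫ ·) h)
  exact congrArg (fun φ : ballData.obj n ⟶ Z.X => φ.hom x) h1

lemma toB_t {u : (R Δ ⋙ ι).obj (disc n) ⟶ Z} {A : (R Δ).obj (disc (n + 1)) ⟶ Z.X} {t : I}
    (h : (R Δ).map (τ n) ≫ A = (ev t).map u) (x : Ball n) :
    ((e Δ (n + 1)).inv ≫ A).hom (hemi true n x) = toB u (x, t) := by
  have h1 : ballData.t n ≫ (e Δ (n + 1)).inv ≫ A = (e Δ n).inv ≫ (ev t).map u :=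
    (t_e' Δ n A).trans (congrArg ((e Δ n).inv ≫ ·) h)
  exact congrArg (fun φ : ballData.obj n ⟶ Z.X => φ.hom x) h1

/-- A homotopy on the ball, as a homotopy on a disc. -/
noncomputable def ofB (H : C(Ball n × I, Z.X)) : (R Δ ⋙ ι).obj (disc n) ⟶ Z :=
  ι.map (e Δ n).hom ≫ Kl.mk' (A := ι.obj (ballData.obj n)) H

lemma ofB_toB (u : (R Δ ⋙ ι).obj (disc n) ⟶ Z) : ofB (toB u) = u := by
  change ι.map (e Δ n).hom ≫ ι.map (e Δ n).inv ≫ u = u
  rw [← Category.assoc, ← ι.map_comp, Iso.hom_inv_id, ι.map_id]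
  exact Category.id_comp u

lemma σ_ofB {u : (R Δ ⋙ ι).obj (disc n) ⟶ Z} {H : C(Ball (n + 1) × I, Z.X)}
    (h : ∀ x t, H (hemi false n x, t) = toB u (x, t)) :
    (R Δ ⋙ ι).map (Theta0.σ n) ≫ ofB H = u := by
  rw [← ofB_toB u]
  refine Kl.ext' fun x t => Eq.trans ?_ (h ((e Δ n).hom.hom x) t)
  exact congrArg (fun φ : (R Δ).obj (disc n) ⟶ ballData.obj (n + 1) => H (φ.hom x, t)) (e_σ Δ n)

lemma τ_ofB {u : (R Δ ⋙ ι).obj (disc n) ⟶ Z} {H : C(Ball (n + 1) × I, Z.X)}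
    (h : ∀ x t, H (hemi true n x, t) = toB u (x, t)) :
    (R Δ ⋙ ι).map (τ n) ≫ ofB H = u := by
  rw [← ofB_toB u]
  refine Kl.ext' fun x t => Eq.trans ?_ (h ((e Δ n).hom.hom x) t)
  exact congrArg (fun φ : (R Δ).obj (disc n) ⟶ ballData.obj (n + 1) => H (φ.hom x, t)) (e_τ Δ n)

lemma ev_ofB {A : (R Δ).obj (disc n) ⟶ Z.X} {H : C(Ball n × I, Z.X)} {t : I}
    (h : ∀ x, H (x, t) = ((e Δ n).inv ≫ A).hom x) : (ev t).map (ofB (Δ := Δ) H) = A := by
  rw [← (e Δ n).hom_inv_id_assoc A]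
  exact TopCat.hom_ext (ContinuousMap.ext fun x => h ((e Δ n).hom.hom x))

theorem hep_disc {t : I} (ht : t = 0 ∨ t = 1) (u v : (R Δ ⋙ ι).obj (disc n) ⟶ Z)
    (h : Par (R Δ ⋙ ι) u v) (A : (R Δ).obj (disc (n + 1)) ⟶ Z.X)
    (h1 : (R Δ).map (Theta0.σ n) ≫ A = (ev t).map u) (h2 : (R Δ).map (τ n) ≫ A = (ev t).map v) :
    ∃ w : (R Δ ⋙ ι).obj (disc (n + 1)) ⟶ Z, (R Δ ⋙ ι).map (Theta0.σ n) ≫ w = u ∧
      (R Δ ⋙ ι).map (τ n) ≫ w = v ∧ (ev t).map w = A := by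
  rcases ht with rfl | rfl
  · obtain ⟨H, a, b, c⟩ := exists_hep (toB u) (toB v) ((e Δ (n + 1)).inv ≫ A).hom (toB_par h)
      (toB_s h1) (toB_t h2)
    exact ⟨ofB H, σ_ofB a, τ_ofB b, ev_ofB c⟩
  · obtain ⟨H, a, b, c⟩ := exists_hep' (toB u) (toB v) ((e Δ (n + 1)).inv ≫ A).hom (toB_par h)
      (toB_s h1) (toB_t h2)
    exact ⟨ofB H, σ_ofB a, τ_ofB b, ev_ofB c⟩

theorem cyl_disc [ContractibleSpace Z.X] (u v : (R Δ ⋙ ι).obj (disc n) ⟶ Z)
    (h : Par (R Δ ⋙ ι) u v) (A B : (R Δ).obj (disc (n + 1)) ⟶ Z.X)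
    (h1 : (R Δ).map (Theta0.σ n) ≫ A = (ev 0).map u) (h2 : (R Δ).map (τ n) ≫ A = (ev 0).map v)
    (h3 : (R Δ).map (Theta0.σ n) ≫ B = (ev 1).map u) (h4 : (R Δ).map (τ n) ≫ B = (ev 1).map v) :
    ∃ w : (R Δ ⋙ ι).obj (disc (n + 1)) ⟶ Z, (R Δ ⋙ ι).map (Theta0.σ n) ≫ w = u ∧
      (R Δ ⋙ ι).map (τ n) ≫ w = v ∧ (ev 0).map w = A ∧ (ev 1).map w = B := by
  obtain ⟨H, a, b, c, d⟩ := exists_cyl (toB u) (toB v) ((e Δ (n + 1)).inv ≫ A).hom
    ((e Δ (n + 1)).inv ≫ B).hom (toB_par h) (toB_s h1) (toB_t h2) (toB_s h3) (toB_t h4)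
  exact ⟨ofB H, σ_ofB a, τ_ofB b, ev_ofB c, ev_ofB d⟩

end

/-- A path of functors between two disc functors. -/
structure DPath (Δ Δ' : DiscFunctor C) where
  θ : R Δ ≅ R Δ'
  H : ∀ {S T : Theta0}, C.Hom S T → ((R Δ ⋙ ι).obj S ⟶ (R Δ ⋙ ι).obj T)
  H_comp : ∀ {S T U : Theta0} (f : C.Hom S T) (g : C.Hom T U), H (C.comp f g) = H f ≫ H g
  H_incl : ∀ {S T : Theta0} (f : S ⟶ T), H (C.incl f) = (R Δ ⋙ ι).map f
  zero : ∀ {S T : Theta0} (f : C.Hom S T),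
    (ev 0).map (H f) = Δ.D.map (X := .of S) (Y := .of T) f
  one : ∀ {S T : Theta0} (f : C.Hom S T), (ev 1).map (H f) =
    θ.hom.app S ≫ Δ'.D.map (X := .of S) (Y := .of T) f ≫ θ.inv.app T

section

variable {Δ Δ' : DiscFunctor C} (θ : R Δ ≅ R Δ')

/-- The second disc functor, transported to the spaces of the first. -/
noncomputable def conj {S T : Theta0} (f : C.Hom S T) : (R Δ).obj S ⟶ (R Δ).obj T :=
  θ.hom.app S ≫ Δ'.D.map (X := .of S) (Y := .of T) f ≫ θ.inv.app T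

lemma conj_incl {S T : Theta0} (f : S ⟶ T) : conj θ (C.incl f) = (R Δ).map f := by
  change θ.hom.app S ≫ (R Δ').map f ≫ θ.inv.app T = _
  rw [θ.inv.naturality, θ.hom_inv_id_app_assoc]

lemma conj_comp {S T U : Theta0} (f : C.Hom S T) (g : C.Hom T U) :
    conj θ (C.comp f g) = conj θ f ≫ conj θ g := by
  have h := Δ'.D.map_comp (X := .of S) (Y := .of T) (Z := .of U) f g
  have h2 := θ.inv_hom_id_app T
  refine (congrArg (fun w => θ.hom.app S ≫ w ≫ θ.inv.app U) h).trans ?_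
  refine TopCat.hom_ext (ContinuousMap.ext fun x => ?_)
  exact congrArg (fun φ : (R Δ').obj T ⟶ (R Δ').obj T => (θ.inv.app U).hom
    ((Δ'.D.map (X := .of T) (Y := .of U) g).hom (φ.hom
      ((Δ'.D.map (X := .of S) (Y := .of T) f).hom ((θ.hom.app S).hom x))))) h2.symm

/-- The first disc functor. -/
noncomputable def dm (Δ : DiscFunctor C) {S T : Theta0} (f : C.Hom S T) :
    (R Δ).obj S ⟶ (R Δ).obj T := Δ.D.map (X := .of S) (Y := .of T) f

lemma dm_comp {S T U : Theta0} (f : C.Hom S T) (g : C.Hom T U) :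
    dm Δ (C.comp f g) = dm Δ f ≫ dm Δ g :=
  Δ.D.map_comp (X := .of S) (Y := .of T) (Z := .of U) f g

/-- The ends of the homotopy are the prescribed ones. -/
def Ends {S T : Theta0} (p : (prodExt C (R Δ ⋙ ι) (glue_ι Δ.glue)).Hom S T) : Prop :=
  (ev 0).map p.2 = dm Δ p.1 ∧ (ev 1).map p.2 = conj θ p.1

/-- Maps of `C` with a homotopy between their images under the two disc functors. -/
noncomputable def pathExt : GlobExt :=
  subExt (prodExt C (R Δ ⋙ ι) (glue_ι Δ.glue)) (Ends θ)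
    (fun f => ⟨rfl, (conj_incl θ f).symm⟩)
    (fun f g hf hg => ⟨(congrArg₂ (· ≫ ·) hf.1 hg.1).trans (dm_comp f.1 g.1).symm,
      (congrArg₂ (· ≫ ·) hf.2 hg.2).trans (conj_comp θ f.1 g.1).symm⟩)
    (fun t j i hl hi _ c h1 h2 =>
      ⟨(Δ.glue t j i hl hi).hom_ext (h1.1.trans (dm_comp _ c.1)) (h2.1.trans (dm_comp _ c.1)),
      (Δ.glue t j i hl hi).hom_ext
        (h1.2.trans ((conj_comp θ _ c.1).trans (congrArg (· ≫ conj θ c.1) (conj_incl θ _))))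
        (h2.2.trans ((conj_comp θ _ c.1).trans (congrArg (· ≫ conj θ c.1) (conj_incl θ _))))⟩)

/-- The projection to `C`. -/
noncomputable def pathFst : Map (pathExt θ) C where
  map f := f.1.1
  map_id _ := rfl
  map_comp _ _ := rfl
  map_incl _ := rfl

theorem lifts_pathFst : LiftsAlong (pathFst θ) := by
  intro n S _ u v huv w hw
  have hp : Par (R Δ ⋙ ι) u.1.2 v.1.2 := by
    cases n with
    | zero => trivial
    | succ n => exact ⟨congrArg (fun p => p.1.2) huv.1, congrArg (fun p => p.1.2) huv.2⟩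
  have : ContractibleSpace ((R Δ ⋙ ι).obj S).X := Δ.contractible (.of S)
  have c1 : ∀ (f : disc n ⟶ disc (n + 1)) {g : C.Hom (disc n) S}, C.comp (C.incl f) w = g →
      (R Δ).map f ≫ dm Δ w = dm Δ g := fun f g h => (dm_comp _ w).symm.trans (congrArg (dm Δ) h)
  have c2 : ∀ (f : disc n ⟶ disc (n + 1)) {g : C.Hom (disc n) S}, C.comp (C.incl f) w = g →
      (R Δ).map f ≫ conj θ w = conj θ g := fun f g h =>
    (congrArg (· ≫ conj θ w) (conj_incl θ f)).symm.trans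
      ((conj_comp θ _ w).symm.trans (congrArg (conj θ) h))
  obtain ⟨H, h1, h2, h3, h4⟩ := cyl_disc u.1.2 v.1.2 hp (dm Δ w) (conj θ w)
    ((c1 _ hw.1).trans u.2.1.symm) ((c1 _ hw.2).trans v.2.1.symm)
    ((c2 _ hw.1).trans u.2.2.symm) ((c2 _ hw.2).trans v.2.2.symm)
  exact ⟨⟨(w, H), h3, h4⟩, ⟨Subtype.ext (Prod.ext hw.1 h1), Subtype.ext (Prod.ext hw.2 h2)⟩, rfl⟩

end

theorem exists_dpath (T : Tower C) (Δ Δ' : DiscFunctor C) : Nonempty (DPath Δ Δ') := by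
  obtain ⟨θ⟩ := exists_theta Δ Δ'
  obtain ⟨s, hs⟩ := T.exists_section (pathFst θ) (lifts_pathFst θ)
  have h : ∀ {S T : Theta0} (f : C.Hom S T), (s.map f).1.1 = f := fun f =>
    congrArg (fun F : Map C C => F.map f) hs
  exact ⟨⟨θ, fun f => (s.map f).1.2, fun f g => congrArg (fun p => p.1.2) (s.map_comp f g),
    fun f => congrArg (fun p => p.1.2) (s.map_incl f),
    fun f => (s.map f).2.1.trans (congrArg (dm Δ) (h f)),
    fun f => (s.map f).2.2.trans (congrArg (conj θ) (h f))⟩⟩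

/-- Parallel cells. -/
def CPar {X : C.Gpd} : {n : ℕ} → (u v : cell X n) → Prop
  | 0, _, _ => True
  | _ + 1, u, v => src u = src v ∧ tgt u = tgt v

/-- Trivial fibrations, in terms of cells. -/
theorem trivFib_of_cells {X Y : C.Gpd} (f : X ⟶ Y) (h0 : ∀ y : cell Y 0, ∃ x, mapCell f x = y)
    (h1 : ∀ (n : ℕ) (u v : cell X n), CPar u v → ∀ w : cell Y (n + 1), src w = mapCell f u →
      tgt w = mapCell f v → ∃ w', src w' = u ∧ tgt w' = v ∧ mapCell f w' = w) :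
    TrivFib (C.F ⊤) f := by
  intro A B i hi
  obtain ⟨j⟩ := hi
  refine hasLift_of_exists fun β w hw => ?_
  cases j with
  | zero =>
    obtain ⟨x, hx⟩ := h0 (toCell w)
    obtain ⟨x, rfl⟩ := toCell_surjective x
    exact ⟨x, sph_zero_hom_ext _ _ _, toCell_injective ((toCell_map x f).trans hx)⟩
  | succ k =>
    have hpar : bd (C.F ⊤) k ≫ hemS (C.F ⊤) k ≫ β = bd (C.F ⊤) k ≫ hemT (C.F ⊤) k ≫ β := by
      rw [← Category.assoc, (isPushout_sph (C.F ⊤) k).w, Category.assoc]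
    have hp : CPar (toCell (hemS (C.F ⊤) k ≫ β)) (toCell (hemT (C.F ⊤) k ≫ β)) := by
      cases k with
      | zero => trivial
      | succ m =>
        rw [bd_comp_eq_iff] at hpar
        exact ⟨(toCell_sg _).symm.trans ((congrArg toCell hpar.1).trans (toCell_sg _)),
          (toCell_tg _).symm.trans ((congrArg toCell hpar.2).trans (toCell_tg _))⟩
    obtain ⟨x, a, b, c⟩ := h1 k _ _ hp (toCell w)
      (by rw [← toCell_sg, ← toCell_map, Category.assoc, hw, hemS_bd_assoc])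
      (by rw [← toCell_tg, ← toCell_map, Category.assoc, hw, hemT_bd_assoc])
    obtain ⟨x, rfl⟩ := toCell_surjective x
    refine ⟨x, sph_hom_ext _ ?_ ?_, toCell_injective ((toCell_map x f).trans c)⟩
    · rw [hemS_bd_assoc]
      exact toCell_injective ((toCell_sg x).trans a)
    · rw [hemT_bd_assoc]
      exact toCell_injective ((toCell_tg x).trans b)

namespace DPath

variable {Δ Δ' : DiscFunctor C} (P : DPath Δ Δ')

/-- The path, as a functor. -/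
noncomputable def D : C.Obj ⥤ Kl where
  obj S := (R Δ ⋙ ι).obj S.sum
  map f := P.H f
  map_id S := (congrArg P.H (C.incl_id S.sum).symm).trans
    ((P.H_incl _).trans ((R Δ ⋙ ι).map_id _))
  map_comp f g := P.H_comp f g

lemma J_D : C.J ⋙ P.D = R Δ ⋙ ι :=
  Functor.hext (fun _ => rfl) fun _ _ f => heq_of_eq (P.H_incl f)

lemma glue : PreservesGlue (C.J ⋙ P.D) := by
  rw [J_D]
  exact glue_ι Δ.glue

/-- The `∞`-groupoid of homotopies. -/
noncomputable def Pi : TopCat.{0} ⥤ C.Gpd where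
  obj Y := ⟨P.D.op ⋙ yoneda.obj (ι.obj Y), isSegal_of_glue P.D P.glue _, isThin_top _⟩
  map f := ⟨Functor.whiskerLeft P.D.op (yoneda.map (ι.map f))⟩
  map_id _ := rfl
  map_comp _ _ := rfl

/-- Evaluation at time `0`. -/
noncomputable def a : P.Pi ⟶ Δ.Pi where
  app Y := ⟨{
    app := fun S => TypeCat.ofHom fun u : P.D.obj S.unop ⟶ ι.obj Y => (ev 0).map u
    naturality := fun S T f => by
      ext u
      exact congrArg (· ≫ (ev 0).map u) (P.zero f.unop) }⟩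
  naturality _ _ _ := rfl

/-- Evaluation at time `1`. -/
noncomputable def b : P.Pi ⟶ Δ'.Pi where
  app Y := ⟨{
    app := fun S => TypeCat.ofHom fun u : P.D.obj S.unop ⟶ ι.obj Y =>
      P.θ.inv.app S.unop.sum ≫ (ev 1).map u
    naturality := fun S T f => by
      ext u
      refine (congrArg (fun w => P.θ.inv.app T.unop.sum ≫ w ≫ (ev 1).map u)
        (P.one f.unop)).trans ?_
      exact P.θ.inv_hom_id_app_assoc T.unop.sum
        (Δ'.D.map f.unop ≫ P.θ.inv.app S.unop.sum ≫ (ev 1).map u) }⟩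
  naturality _ _ _ := rfl

lemma src_eq {Y : TopCat.{0}} {n : ℕ} (w : cell (P.Pi.obj Y) (n + 1)) :
    src w = (R Δ ⋙ ι).map (Theta0.σ n) ≫ w := congrArg (· ≫ w) (P.H_incl _)

lemma tgt_eq {Y : TopCat.{0}} {n : ℕ} (w : cell (P.Pi.obj Y) (n + 1)) :
    tgt w = (R Δ ⋙ ι).map (τ n) ≫ w := congrArg (· ≫ w) (P.H_incl _)

lemma par {Y : TopCat.{0}} {n : ℕ} {u v : cell (P.Pi.obj Y) n} (h : CPar u v) :
    Par (R Δ ⋙ ι) (Z := ι.obj Y) u v := by
  cases n with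
  | zero => trivial
  | succ n => exact ⟨(P.src_eq u).symm.trans (h.1.trans (P.src_eq v)),
      (P.tgt_eq u).symm.trans (h.2.trans (P.tgt_eq v))⟩

theorem triv_a (Y : TopCat.{0}) : TrivFib (C.F ⊤) (P.a.app Y) := by
  refine trivFib_of_cells _ (fun y => ⟨ι.map y, rfl⟩) fun n u v h w h1 h2 => ?_
  obtain ⟨H, a, b, c⟩ := hep_disc (Z := ι.obj Y) (Or.inl rfl) u v (P.par h) w h1 h2
  exact ⟨H, (P.src_eq H).trans a, (P.tgt_eq H).trans b, c⟩

theorem triv_b (Y : TopCat.{0}) : TrivFib (C.F ⊤) (P.b.app Y) := by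
  refine trivFib_of_cells _ (fun y => ⟨ι.map (P.θ.hom.app (disc 0) ≫ y),
    P.θ.inv_hom_id_app_assoc (disc 0) y⟩) fun n u v h w h1 h2 => ?_
  have k : ∀ (f : disc n ⟶ disc (n + 1)) (x : (R Δ).obj (disc n) ⟶ Y)
      (w : (R Δ').obj (disc (n + 1)) ⟶ Y), (R Δ').map f ≫ w = P.θ.inv.app (disc n) ≫ x →
      (R Δ).map f ≫ P.θ.hom.app (disc (n + 1)) ≫ w = x := fun f x w h => by
    rw [P.θ.hom.naturality_assoc, h, P.θ.hom_inv_id_app_assoc]
  obtain ⟨H, a, b, c⟩ := hep_disc (Z := ι.obj Y) (Or.inr rfl) u v (P.par h)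
    (P.θ.hom.app (disc (n + 1)) ≫ w) (k _ _ w h1) (k _ _ w h2)
  refine ⟨H, (P.src_eq H).trans a, (P.tgt_eq H).trans b, ?_⟩
  exact (congrArg (P.θ.inv.app (disc (n + 1)) ≫ ·) c).trans
    (P.θ.inv_hom_id_app_assoc (disc (n + 1)) w)

end DPath

/-- The zigzag between the fundamental `∞`-groupoid functors of two disc functors. -/
theorem exists_zigzag (hC : C.IsCoherator) (J : C.Ident) (Δ Δ' : DiscFunctor C) :
    ∃ (P : TopCat.{0} ⥤ C.Gpd) (a : P ⟶ Δ.Pi) (b : P ⟶ Δ'.Pi),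
      ∀ Y, weq J (a.app Y) ∧ weq J (b.app Y) := by
  obtain ⟨P⟩ := exists_dpath hC.tower.some Δ Δ'
  exact ⟨P.Pi, P.a, P.b, fun Y =>
    ⟨weq_of_trivFib hC J (P.triv_a Y), weq_of_trivFib hC J (P.triv_b Y)⟩⟩

end Vale.Agent.N259
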