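import Vale.Agent.N259.Can

/-!
The homotopy hypothesis and the independence of all choices.
-/

open CategoryTheory Limits

namespace Vale.Agent.N259

open Vale.Agent.P259Z Br Coherator

theorem final :
    (Nonempty Coherator ∧
      (∀ (T : ℕ ⥤ GlobExt) (c : Cocone T),
        Nonempty (IsColimit (toCat.mapCocone c)) → Nonempty (IsColimit c)) ∧
      ∀ C : Coherator, Nonempty C.Ops ∧ (∀ O O' : C.Ops, weq O = weq O') ∧
        ∃ D : DiscFunctor C, D.discs.IsStrict ∧ ∀ O : C.Ops,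
          (∀ (Y Z : Top) (f : Y ⟶ Z), wTop f → weq O (D.Pi.map f)) ∧
          ∃ G : HoTop ⥤ Ho O, Induces wTop (weq O) D.Pi G ∧ G.IsEquivalence) ∧
    (∀ (C : Coherator) (O : C.Ops) (D D' : DiscFunctor C),
      (∃ (P : Top ⥤ C.Gpd) (a : NatTrans P D.Pi) (b : NatTrans P D'.Pi),
        ∀ Y, weq O (a.app Y) ∧ weq O (b.app Y)) ∧
      ∃ G G' : HoTop ⥤ Ho O, Induces wTop (weq O) D.Pi G ∧ Induces wTop (weq O) D'.Pi G' ∧
        G.IsEquivalence ∧ Nonempty (G ≅ G')) ∧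
    ∀ (C C' : Coherator) (O : C.Ops) (O' : C'.Ops),
      Nonempty (GHom C.toGlobExt C'.toGlobExt) ∧
      ∀ T T' : GHom C.toGlobExt C'.toGlobExt,
        weq O' = (weq O).inverseImage (restrict T) ∧
        ∃ R R' : Ho O' ⥤ Ho O,
          Induces (weq O') (weq O) (restrict T) R ∧ Induces (weq O') (weq O) (restrict T') R' ∧
          R.IsEquivalence ∧ Nonempty (R ≅ R') ∧
          ∀ (D : DiscFunctor C) (D' : DiscFunctor C') (G : HoTop ⥤ Ho O) (G' : HoTop ⥤ Ho O'),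
            Induces wTop (weq O) D.Pi G → Induces wTop (weq O') D'.Pi G' →
            Nonempty (G' ⋙ R ≅ G) := by
  refine ⟨⟨nonempty_coherator, isColimit_of_toCat, fun C => ⟨nonempty_ops C, weq_indep, ?_⟩⟩,
    fun C O D D' => ⟨zigzag O D D', ?_⟩, fun C C' O O' => ⟨nonempty_hom C C', fun T T' =>
      ⟨weq_restrict T O O', ?_⟩⟩⟩
  · obtain ⟨D, hD⟩ := exists_strict C
    exact ⟨D, hD, fun O => ⟨fun _ _ f hf => (isLocalization O D).1.le f hf, exists_G O D⟩⟩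
  · obtain ⟨G, hG, h⟩ := exists_G O D
    obtain ⟨G', hG', -⟩ := exists_G O D'
    obtain ⟨e⟩ := iso_Pi O D D'
    exact ⟨G, G', hG, hG', h, iso_of_fac whe (eqToIso hG ≪≫ e ≪≫ eqToIso hG'.symm)⟩
  · obtain ⟨R, hR⟩ := exists_R T O O'
    obtain ⟨R', hR'⟩ := exists_R T' O O'
    exact ⟨R, R', hR, hR', isEquivalence_R hR, iso_R hR hR',
      fun D D' G G' hG hG' => triangle hG hG' hR⟩

end Vale.Agent.N259
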